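import Vale.Agent.P284.H206.K.B8
import Vale.Agent.P272.K.EST.Local

/-!
# P284 (helper366), project D, module E1: the constant `C₀`

On a compact manifold with a positive definite form `W` every continuous Hermitian `(1,1)`-form `Θ`
satisfies `-C W ≤ Θ ≤ C W` for large `C`.
-/

open scoped Manifold ContDiff Topology ComplexOrder ComplexConjugate Matrix
open Filter Set Metric

noncomputable section

namespace Vale.Agent.P284.H366.D

open Vale.Agent.P272.K Vale.Agent.P272.K.EST Vale.Agent.P284.H248 Vale.Agent.P284.H206.K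

variable {n : ℕ} {X : Type} [TopologicalSpace X] [ChartedSpace (Cm n) X]
  {W Θ : Chart n X → Cm n → Matrix (Fin n) (Fin n) ℂ}

/-- the two inequalities at a point -/
def PP (W Θ : Chart n X → Cm n → Matrix (Fin n) (Fin n) ℂ) (C : ℝ) (x : X) : Prop :=
  ∀ e : Chart n X, At e x → ((C : ℂ) • W e (e x) - Θ e (e x)).PosSemidef ∧
    ((C : ℂ) • W e (e x) + Θ e (e x)).PosSemidef

theorem psd_congr {A B J : Matrix (Fin n) (Fin n) ℂ} (hA : A.PosSemidef)
    (h : B = Jᵀ * A * J.map (starRingEnd ℂ)) : B.PosSemidef := by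
  have h1 := hA.conjTranspose_mul_mul_same (J.map (starRingEnd ℂ))
  have h2 : (J.map (starRingEnd ℂ))ᴴ = Jᵀ := by
    ext i j
    simp [Matrix.conjTranspose_apply, Matrix.map_apply]
  rw [h2, ← h] at h1
  exact h1

theorem PP.of_chart (hW : C11 W) (hΘ : C11 Θ) {C : ℝ} {x : X} {c : Chart n X} (hc : At c x)
    (h1 : ((C : ℂ) • W c (c x) - Θ c (c x)).PosSemidef)
    (h2 : ((C : ℂ) • W c (c x) + Θ c (c x)).PosSemidef) : PP W Θ C x := by
  intro e he
  refine ⟨psd_congr h1 (J := jacM e c x) ?_, psd_congr h2 (J := jacM e c x) ?_⟩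
  · rw [hW.change e c x he hc, hΘ.change e c x he hc]
    simp only [Matrix.mul_sub, Matrix.sub_mul, Matrix.mul_smul, Matrix.smul_mul]
  · rw [hW.change e c x he hc, hΘ.change e c x he hc]
    simp only [Matrix.mul_add, Matrix.add_mul, Matrix.mul_smul, Matrix.smul_mul]

theorem PP.mono (hpos : ∀ (e : Chart n X) x, At e x → (W e (e x)).PosDef) {C C' : ℝ} {x : X}
    (h : PP W Θ C x) (hC : C ≤ C') : PP W Θ C' x := by
  intro e he
  have h0 : (((C' - C : ℝ) : ℂ) • W e (e x)).PosSemidef :=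
    (hpos e x he).posSemidef.smul (by
      rw [Complex.zero_le_real]
      linarith)
  have e1 : ∀ A : Matrix (Fin n) (Fin n) ℂ, (C' : ℂ) • W e (e x) + A =
      ((C' - C : ℝ) : ℂ) • W e (e x) + ((C : ℂ) • W e (e x) + A) := by
    intro A
    rw [← add_assoc, ← add_smul]
    push_cast
    rw [sub_add_cancel]
  refine ⟨?_, ?_⟩
  · rw [sub_eq_add_neg, e1, ← sub_eq_add_neg]
    exact h0.add (h e he).1
  · rw [e1]
    exact h0.add (h e he).2

theorem PP_local (hw : IsHermitian W) (hΘ : C11 Θ)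
    (hH : ∀ (e : Chart n X) x, At e x → (Θ e (e x)).IsHermitian) (hW : C11 W) (x : X) :
    ∃ C : ℝ, 0 < C ∧ ∀ᶠ y in 𝓝 x, PP W Θ C y := by
  set c := chartAt (Cm n) x with hc
  have hx : At c x := ⟨chart_mem_atlas _ _, mem_chart_source _ _⟩
  obtain ⟨r, hr, hsub⟩ := Metric.nhds_basis_closedBall.mem_iff.1
    (c.open_target.mem_nhds (c.map_source hx.2))
  set K : Set (Cm n) := closedBall (c x) r with hK
  have hKc : IsCompact K := isCompact_closedBall _ _
  have hcont : ∀ {Ψ : Chart n X → Cm n → Matrix (Fin n) (Fin n) ℂ}, C11 Ψ → ∀ i j,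
      ContinuousOn (fun z => Ψ c z i j) K := by
    intro Ψ hΨ i j z hz
    have h1 := hΨ.cont c (c.symm z) ⟨hx.1, c.map_target (hsub hz)⟩ i j
    rw [c.right_inv (hsub hz)] at h1
    exact h1.continuousWithinAt
  have hpd : ∀ z ∈ K, (W c z).PosDef := by
    intro z hz
    have h1 := hw.posDef c (c.symm z) ⟨hx.1, c.map_target (hsub hz)⟩
    rwa [c.right_inv (hsub hz)] at h1
  obtain ⟨C1, hC1, h1⟩ := exists_quad_lower hKc (W c) (Θ c) (hcont hW) (hcont hΘ) hpd
  obtain ⟨C2, hC2, h2⟩ := exists_quad_lower hKc (W c) (fun z => -Θ c z) (hcont hW)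
    (fun i j => (hcont hΘ i j).neg) hpd
  refine ⟨max C1 C2, lt_max_of_lt_left hC1, ?_⟩
  have hn : ∀ᶠ y in 𝓝 x, y ∈ c.source ∧ c y ∈ K := by
    have a1 : ∀ᶠ y in 𝓝 x, y ∈ c.source := c.open_source.mem_nhds hx.2
    have a2 : ∀ᶠ y in 𝓝 x, c y ∈ K :=
      (c.continuousAt hx.2).preimage_mem_nhds (closedBall_mem_nhds _ hr)
    exact a1.and a2
  filter_upwards [hn] with y hy
  have hAt : At c y := ⟨hx.1, hy.1⟩
  have hq : ∀ ξ : Cm n, 0 ≤ (quad (W c (c y)) ξ).re := fun ξ =>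
    quad_nonneg (hpd _ hy.2).posSemidef ξ
  have hWH := (hpd _ hy.2).isHermitian
  have hTH := hH c y hAt
  refine PP.of_chart hW hΘ hAt ?_ ?_
  · have := (posSemidef_smul_sub_iff (a := max C1 C2) (b := 1) hWH hTH).2 fun ξ => by
      rw [one_mul]
      exact (h1 _ hy.2 ξ).trans (mul_le_mul_of_nonneg_right (le_max_left _ _) (hq ξ))
    simpa using this
  · have := (posSemidef_smul_sub_iff (a := max C1 C2) (b := 1) hWH hTH.neg).2 fun ξ => by
      rw [one_mul]
      exact (h2 _ hy.2 ξ).trans (mul_le_mul_of_nonneg_right (le_max_right _ _) (hq ξ))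
    simpa using this

/-- **the constant `C₀`** -/
theorem exists_C0 [CompactSpace X] (hw : IsHermitian W) (hW : C11 W) (hΘ : C11 Θ)
    (hH : ∀ (e : Chart n X) x, At e x → (Θ e (e x)).IsHermitian) :
    ∃ C₀ : ℝ, 0 < C₀ ∧ ∀ C : ℝ, C₀ ≤ C → ∀ (e : Chart n X) x, At e x →
      ((C : ℂ) • W e (e x) - Θ e (e x)).PosSemidef ∧
        ((C : ℂ) • W e (e x) + Θ e (e x)).PosSemidef := by
  choose C hC hP using PP_local hw hΘ hH hW
  obtain ⟨t, ht⟩ := CompactSpace.elim_nhds_subcover (fun x => {y | PP W Θ (C x) y}) fun x => hP x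
  refine ⟨1 + ∑ x ∈ t, C x, by
    have := Finset.sum_nonneg fun x (_ : x ∈ t) => (hC x).le
    linarith, fun C' hC' e x hx => ?_⟩
  have hx' : x ∈ (⊤ : Set X) := trivial
  rw [← ht] at hx'
  obtain ⟨y, hy, hxy⟩ := Set.mem_iUnion₂.1 hx'
  have h1 : C y ≤ ∑ x ∈ t, C x := Finset.single_le_sum (fun x _ => (hC x).le) hy
  exact PP.mono hw.posDef hxy (by linarith) e hx

/-- the curvature form is Hermitian -/
theorem Th_herm {L : LineBundle n X} (P : LPart L) {k : ℕ} (e : Chart n X) (x : X) (hx : At e x) :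
    (Th P k e (e x)).IsHermitian := by
  obtain ⟨i, hi⟩ := L.cover x
  rw [Th_eq P hx hi]
  have := C2.cHess_isHermitian ((logHH_smooth P hx hi).of_le INT.two_le_inf)
  have h2 := isHermitian_smul (k : ℝ) this
  simpa using h2

/-- **the constant `C₀` for the curvature** -/
theorem exists_C0_Th [CompactSpace X] [IsManifold 𝓘(ℂ, Cm n) ω X] (hw : IsKahler W) {L : LineBundle n X} (P : LPart L) (k : ℕ)
    (a : ℝ) (ha : 0 < a) :
    ∃ C₀ : ℝ, 0 < C₀ ∧ ∀ C : ℝ, C₀ ≤ C → ∀ (e : Chart n X) x, At e x →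
      ((C : ℂ) • W e (e x) - (a : ℂ) • Th P k e (e x)).PosSemidef ∧
        ((C : ℂ) • W e (e x) + (a : ℂ) • Th P k e (e x)).PosSemidef := by
  obtain ⟨C₀, hC₀, h⟩ := exists_C0 hw.toIsHermitian (C11.ofK hw) (Th_c11 P (k := k)) (Th_herm P)
  refine ⟨a * C₀, by positivity, fun C hC e x hx => ?_⟩
  have h1 := h (C / a) (by rw [le_div_iff₀ ha]; linarith) e x hx
  have e1 : (C : ℂ) • W e (e x) = (a : ℂ) • ((C / a : ℝ) : ℂ) • W e (e x) := by
    rw [smul_smul]
    congr 1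
    push_cast
    have : (a : ℂ) ≠ 0 := by exact_mod_cast ha.ne'
    field_simp
  have ha' : (0 : ℂ) ≤ (a : ℂ) := by
    rw [Complex.zero_le_real]
    exact ha.le
  rw [e1, ← smul_sub, ← smul_add]
  exact ⟨h1.1.smul ha', h1.2.smul ha'⟩

end Vale.Agent.P284.H366.D
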