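import Vale.Agent.P272.K.C2.Wirt
import Vale.Agent.P272.K.INT.Dens
import Vale.Agent.P272.K.EST.Local
import Vale.Agent.P284.H206.Bog.Loc

/-!
# P284 (helper366), project D, module E1: the Hessian of `log Σ |g_a|² e^{φ_a}` as a Gram determinant,
and the comparison of Gram determinants under a linear map
-/

open scoped Manifold ContDiff Topology ComplexOrder ComplexConjugate Matrix
open Filter Set

noncomputable section

namespace Vale.Agent.P284.H366.D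

open Vale.Agent.P272.K Vale.Agent.P272.K.EST

/-! ### Gram determinants -/

section Gram
variable {κ κ' : Type*} [Fintype κ] [Fintype κ']

/-- `|u|²` -/
def sq (u : κ → ℂ) : ℝ := ∑ a, ‖u a‖ ^ 2

/-- `⟨u, v⟩`, conjugate linear in the first variable -/
def dt (u v : κ → ℂ) : ℂ := ∑ a, conj (u a) * v a

/-- `|u|² |v|² - |⟨u, v⟩|²` -/
def gr (u v : κ → ℂ) : ℝ := sq u * sq v - ‖dt u v‖ ^ 2

theorem sq_nonneg' (u : κ → ℂ) : 0 ≤ sq u := Finset.sum_nonneg fun a _ => by positivity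

theorem dt_self (u : κ → ℂ) : dt u u = (sq u : ℂ) := by
  unfold dt sq
  push_cast
  exact Finset.sum_congr rfl fun a _ => by rw [Complex.conj_mul']

theorem dt_conj (u v : κ → ℂ) : conj (dt u v) = dt v u := by
  unfold dt
  rw [map_sum]
  exact Finset.sum_congr rfl fun a _ => by rw [map_mul, Complex.conj_conj, mul_comm]

theorem dt_sub_smul (u v w : κ → ℂ) (c : ℂ) : dt u (v - c • w) = dt u v - c * dt u w := by
  unfold dt
  rw [Finset.mul_sum, ← Finset.sum_sub_distrib]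
  refine Finset.sum_congr rfl fun a _ => ?_
  simp only [Pi.sub_apply, Pi.smul_apply, smul_eq_mul]
  ring

theorem dt_sub_smul' (u v w : κ → ℂ) (c : ℂ) :
    dt (v - c • w) u = dt v u - conj c * dt w u := by
  rw [← dt_conj, dt_sub_smul, map_sub, map_mul, dt_conj, dt_conj]

/-- the fundamental identity -/
theorem gr_id (u v : κ → ℂ) (c : ℂ) :
    sq u * sq (v - c • u) = gr u v + ‖dt u v - c * sq u‖ ^ 2 := by
  have h : ((sq u * sq (v - c • u) : ℝ) : ℂ) = ((gr u v + ‖dt u v - c * sq u‖ ^ 2 : ℝ) : ℂ) := by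
    unfold gr
    push_cast
    rw [← Complex.mul_conj', ← Complex.mul_conj', map_sub, map_mul, Complex.conj_ofReal, dt_conj,
      ← dt_self, ← dt_self, ← dt_self, dt_sub_smul, dt_sub_smul', dt_sub_smul', dt_self]
    ring
  exact_mod_cast h

theorem gr_nonneg (u v : κ → ℂ) : 0 ≤ gr u v := by
  rcases eq_or_ne (sq u) 0 with h | h
  · have h1 : dt u v = 0 := by
      refine Finset.sum_eq_zero fun a _ => ?_
      have h2 := (Finset.sum_eq_zero_iff_of_nonneg fun a _ => by positivity).1 h a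
        (Finset.mem_univ a)
      have h3 : u a = 0 := by simpa using h2
      rw [h3, map_zero, zero_mul]
    simp [gr, h, h1]
  · have h1 := gr_id u v (dt u v / sq u)
    rw [div_mul_cancel₀ _ (by exact_mod_cast h), sub_self, norm_zero] at h1
    have h2 := mul_nonneg (sq_nonneg' u) (sq_nonneg' (v - (dt u v / sq u) • u))
    linarith

/-- comparison of Gram determinants -/
theorem gr_le (B : (κ → ℂ) →ₗ[ℂ] (κ' → ℂ)) {b : ℝ} (hB : ∀ w, sq (B w) ≤ b * sq w)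
    {u : κ → ℂ} (hu : 0 < sq u) (v : κ → ℂ) :
    sq u * gr (B u) (B v) ≤ b * sq (B u) * gr u v := by
  set c : ℂ := dt u v / sq u with hc
  have h0 : (sq u : ℂ) ≠ 0 := by exact_mod_cast hu.ne'
  have h1 := gr_id u v c
  rw [hc, div_mul_cancel₀ _ h0, sub_self, norm_zero, ← hc] at h1
  have h2 := gr_id (B u) (B v) c
  rw [← map_smul, ← map_sub] at h2
  have h3 : gr (B u) (B v) ≤ sq (B u) * sq (B (v - c • u)) := by
    rw [h2]
    nlinarith [sq_nonneg ‖dt (B u) (B v) - c * (sq (B u) : ℂ)‖]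
  have h4 : gr u v = sq u * sq (v - c • u) := by linarith
  calc sq u * gr (B u) (B v) ≤ sq u * (sq (B u) * sq (B (v - c • u))) :=
        mul_le_mul_of_nonneg_left h3 hu.le
    _ ≤ sq u * (sq (B u) * (b * sq (v - c • u))) :=
        mul_le_mul_of_nonneg_left (mul_le_mul_of_nonneg_left (hB _) (sq_nonneg' _)) hu.le
    _ = b * sq (B u) * gr u v := by rw [h4]; ring

end Gram

/-! ### the Hessian -/

section Hess
variable {n : ℕ} {z : Cm n}

/-- `∂g + g ∂φ` -/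
def Dg (g : Cm n → ℂ) (φ : Cm n → ℝ) (z : Cm n) (j : Fin n) : ℂ :=
  dz j g z + g z * dz j (fun y => (φ y : ℂ)) z

theorem term_eq (g : Cm n → ℂ) (φ : Cm n → ℝ) :
    (fun y => ((‖g y‖ ^ 2 * Real.exp (φ y) : ℝ) : ℂ)) =
      fun y => (g y * conj (g y)) * ((Real.exp (φ y) : ℝ) : ℂ) := by
  funext y
  rw [Complex.mul_conj']
  push_cast
  ring

theorem term_dzb {g : Cm n → ℂ} {φ : Cm n → ℝ} (hg : DifferentiableAt ℂ g z)
    (hφ : DifferentiableAt ℝ φ z) (k : Fin n) :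
    dzb k (fun y => ((‖g y‖ ^ 2 * Real.exp (φ y) : ℝ) : ℂ)) z =
      (Real.exp (φ z) : ℂ) * g z * conj (Dg g φ z k) := by
  have hg' : DifferentiableAt ℝ g z := hg.restrictScalars ℝ
  have h1 : DifferentiableAt ℝ (fun y => conj (g y)) z := C2.differentiableAt_conj hg'
  have h2 : DifferentiableAt ℝ (fun y => ((Real.exp (φ y) : ℝ) : ℂ)) z :=
    C2.differentiableAt_ofReal hφ.exp
  have h3 : DifferentiableAt ℝ (fun y => g y * conj (g y)) z := hg'.mul h1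
  rw [term_eq, C2.dzb_mul k h3 h2, C2.dzb_mul k hg' h1, C2.dzb_conj k hg',
    INT.dzb_of_holo hg, C2.dzb_comp_real (ψ := Real.exp) k (Real.hasDerivAt_exp _) hφ,
    C2.dzb_real k hφ]
  unfold Dg
  rw [map_add, map_mul]
  ring

theorem term_dz {g : Cm n → ℂ} {φ : Cm n → ℝ} (hg : DifferentiableAt ℂ g z)
    (hφ : DifferentiableAt ℝ φ z) (k : Fin n) :
    dz k (fun y => ((‖g y‖ ^ 2 * Real.exp (φ y) : ℝ) : ℂ)) z =
      (Real.exp (φ z) : ℂ) * conj (g z) * Dg g φ z k := by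
  have h0 : DifferentiableAt ℝ (fun y => ‖g y‖ ^ 2 * Real.exp (φ y)) z :=
    ((hg.restrictScalars ℝ).norm_sq ℝ).mul hφ.exp
  rw [C2.dz_real k h0, term_dzb hg hφ, map_mul, map_mul, Complex.conj_ofReal, Complex.conj_conj]

theorem term_hess {g : Cm n → ℂ} {φ : Cm n → ℝ} (hg : AnalyticAt ℂ g z)
    (hφ : ContDiffAt ℝ 2 φ z) (j k : Fin n) :
    cHess (fun y => ‖g y‖ ^ 2 * Real.exp (φ y)) z j k =
      (Real.exp (φ z) : ℂ) * (Dg g φ z j * conj (Dg g φ z k)) +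
        ((‖g z‖ ^ 2 * Real.exp (φ z) : ℝ) : ℂ) * cHess φ z j k := by
  have hga : ∀ᶠ y in 𝓝 z, DifferentiableAt ℂ g y :=
    hg.eventually_analyticAt.mono fun y hy => hy.differentiableAt
  have hφa : ∀ᶠ y in 𝓝 z, ContDiffAt ℝ 2 φ y := C2.eventually_contDiffAt (m := 2) hφ
  have hgd : DifferentiableAt ℝ g z := hg.differentiableAt.restrictScalars ℝ
  have hφd : DifferentiableAt ℝ φ z := hφ.differentiableAt (by norm_num)
  have hg2 : ContDiffAt ℝ 2 g z := (hg.contDiffAt (n := 2)).restrict_scalars ℝ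
  -- `dzb` near `z`
  have e1 : dzb k (fun y => ((‖g y‖ ^ 2 * Real.exp (φ y) : ℝ) : ℂ)) =ᶠ[𝓝 z]
      fun y => (((Real.exp (φ y) : ℝ) : ℂ) * g y) *
        (conj (dz k g y) + conj (g y) * dzb k (fun y => (φ y : ℂ)) y) := by
    filter_upwards [hga, hφa] with y h1 h2
    have h3 := h2.differentiableAt (by norm_num)
    rw [term_dzb h1 h3, Dg, map_add, map_mul, C2.dzb_real k h3]
  have h2 : DifferentiableAt ℝ (fun y => ((Real.exp (φ y) : ℝ) : ℂ)) z :=
    C2.differentiableAt_ofReal hφd.exp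
  have h3 : DifferentiableAt ℝ (dz k g) z := C2.differentiableAt_dz k hg2
  have h4 : DifferentiableAt ℝ (fun y => conj (dz k g y)) z := C2.differentiableAt_conj h3
  have h5 : DifferentiableAt ℝ (fun y => conj (g y)) z := C2.differentiableAt_conj hgd
  have h6 : DifferentiableAt ℝ (dzb k (fun y => (φ y : ℂ))) z :=
    C2.differentiableAt_dzb k (C2.contDiffAt_ofReal hφ)
  have h7 : dz j (fun y => conj (dz k g y)) z = 0 := by
    rw [C2.dz_conj j h3, ← C2.dz_dzb_comm k j hg2]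
    have h8 : dzb j g =ᶠ[𝓝 z] fun _ => 0 := by
      filter_upwards [hga] with y hy using INT.dzb_of_holo hy j
    rw [C2.dz_congr k h8, C2.dz_const, map_zero]
  have h8 : dz j (fun y => conj (g y)) z = 0 := by
    rw [C2.dz_conj j hgd, INT.dzb_of_holo hg.differentiableAt, map_zero]
  have h9 : DifferentiableAt ℝ (fun y => ((Real.exp (φ y) : ℝ) : ℂ) * g y) z := h2.mul hgd
  have h10 : DifferentiableAt ℝ (fun y => conj (g y) * dzb k (fun y => (φ y : ℂ)) y) z := h5.mul h6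
  have h11 : DifferentiableAt ℝ (fun y => conj (dz k g y) +
      conj (g y) * dzb k (fun y => (φ y : ℂ)) y) z := h4.add h10
  have h12 : cHess φ z j k = dz j (dzb k fun y => (φ y : ℂ)) z := rfl
  rw [C2.cHess_apply, C2.dz_congr j e1, C2.dz_mul j h9 h11,
    C2.dz_mul j h2 hgd, C2.dz_add j h4 h10, C2.dz_mul j h5 h6, h7, h8,
    C2.dz_comp_real (ψ := Real.exp) j (Real.hasDerivAt_exp _) hφd, h12]
  unfold Dg
  rw [map_add, map_mul, ← C2.dzb_real k hφd]
  push_cast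
  rw [← Complex.mul_conj']
  ring

theorem quad_rank (p ξ : Cm n) :
    quad (Matrix.vecMulVec p (star p)) ξ = ((‖∑ i, p i * ξ i‖ ^ 2 : ℝ) : ℂ) := by
  have h : quad (Matrix.vecMulVec p (star p)) ξ = (∑ i, p i * ξ i) * conj (∑ j, p j * ξ j) := by
    rw [map_sum, Finset.sum_mul_sum]
    unfold quad
    refine Finset.sum_congr rfl fun i _ => Finset.sum_congr rfl fun j _ => ?_
    rw [map_mul, Matrix.vecMulVec_apply, Pi.star_apply]
    simp only [cj, RCLike.star_def]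
    ring
  rw [h, Complex.mul_conj']
  push_cast
  rfl

theorem quad_add (M N : Matrix (Fin n) (Fin n) ℂ) (ξ : Cm n) :
    quad (M + N) ξ = quad M ξ + quad N ξ := by
  simp only [quad, Matrix.add_apply, add_mul, Finset.sum_add_distrib]

theorem quad_sum {ι : Type*} (s : Finset ι) (M : ι → Matrix (Fin n) (Fin n) ℂ) (ξ : Cm n) :
    quad (∑ a ∈ s, M a) ξ = ∑ a ∈ s, quad (M a) ξ := by
  classical
  induction s using Finset.induction_on with
  | empty => simp [quad]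
  | insert a s ha ih => rw [Finset.sum_insert ha, Finset.sum_insert ha, quad_add, ih]

variable {κ : Type*} [Fintype κ]

/-- the vector `e^{φ_a / 2} g_a` -/
def uu (g : κ → Cm n → ℂ) (φ : κ → Cm n → ℝ) (z : Cm n) (a : κ) : ℂ :=
  (Real.exp (φ a z / 2) : ℂ) * g a z

/-- the vector `e^{φ_a / 2} (∂g_a + g_a ∂φ_a)` -/
def UU (g : κ → Cm n → ℂ) (φ : κ → Cm n → ℝ) (z : Cm n) (ξ : Cm n) (a : κ) : ℂ :=
  (Real.exp (φ a z / 2) : ℂ) * ∑ j, Dg (g a) (φ a) z j * ξ j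

theorem exp_half (t : ℝ) : Real.exp (t / 2) * Real.exp (t / 2) = Real.exp t := by
  rw [← Real.exp_add]
  congr 1
  ring

theorem sq_uu (g : κ → Cm n → ℂ) (φ : κ → Cm n → ℝ) (z : Cm n) :
    sq (uu g φ z) = ∑ a, ‖g a z‖ ^ 2 * Real.exp (φ a z) := by
  refine Finset.sum_congr rfl fun a _ => ?_
  rw [uu, norm_mul, Complex.norm_real, Real.norm_eq_abs, abs_of_pos (Real.exp_pos _), mul_pow,
    ← exp_half (φ a z)]
  ring

theorem sq_UU (g : κ → Cm n → ℂ) (φ : κ → Cm n → ℝ) (z ξ : Cm n) :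
    sq (UU g φ z ξ) = ∑ a, ‖∑ j, Dg (g a) (φ a) z j * ξ j‖ ^ 2 * Real.exp (φ a z) := by
  refine Finset.sum_congr rfl fun a _ => ?_
  rw [UU, norm_mul, Complex.norm_real, Real.norm_eq_abs, abs_of_pos (Real.exp_pos _), mul_pow,
    ← exp_half (φ a z)]
  ring

theorem dt_uu_UU (g : κ → Cm n → ℂ) (φ : κ → Cm n → ℝ) (z ξ : Cm n) :
    dt (uu g φ z) (UU g φ z ξ) =
      ∑ a, (Real.exp (φ a z) : ℂ) * conj (g a z) * ∑ j, Dg (g a) (φ a) z j * ξ j := by
  refine Finset.sum_congr rfl fun a _ => ?_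
  rw [uu, UU, map_mul, Complex.conj_ofReal, ← exp_half (φ a z)]
  push_cast
  ring

/-- **the Hessian of `log Σ |g_a|² e^{φ_a}`** -/
theorem quad_hess_log {g : κ → Cm n → ℂ} {φ : κ → Cm n → ℝ} (hg : ∀ a, AnalyticAt ℂ (g a) z)
    (hφ : ∀ a, ContDiffAt ℝ 2 (φ a) z) (hN : 0 < ∑ a, ‖g a z‖ ^ 2 * Real.exp (φ a z))
    (ξ : Cm n) :
    (quad (cHess (fun y => Real.log (∑ a, ‖g a y‖ ^ 2 * Real.exp (φ a y))) z) ξ).re =
      ∑ a, ‖g a z‖ ^ 2 * Real.exp (φ a z) / (∑ a, ‖g a z‖ ^ 2 * Real.exp (φ a z)) *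
        (quad (cHess (φ a) z) ξ).re +
      gr (uu g φ z) (UU g φ z ξ) / (∑ a, ‖g a z‖ ^ 2 * Real.exp (φ a z)) ^ 2 := by
  set N : ℝ := ∑ a, ‖g a z‖ ^ 2 * Real.exp (φ a z) with hNdef
  have hterm : ∀ a, ContDiffAt ℝ 2 (fun y => ‖g a y‖ ^ 2 * Real.exp (φ a y)) z := fun a =>
    ((((hg a).contDiffAt (n := 2)).restrict_scalars ℝ).norm_sq ℝ).mul (hφ a).exp
  have hu : ContDiffAt ℝ 2 (fun y => ∑ a, ‖g a y‖ ^ 2 * Real.exp (φ a y)) z :=
    ContDiffAt.sum fun a _ => hterm a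
  have hd : ∀ a, DifferentiableAt ℝ (fun y => ((‖g a y‖ ^ 2 * Real.exp (φ a y) : ℝ) : ℂ)) z :=
    fun a => C2.differentiableAt_ofReal ((hterm a).differentiableAt (by norm_num))
  have e1 : (fun y => ((∑ a, ‖g a y‖ ^ 2 * Real.exp (φ a y) : ℝ) : ℂ)) =
      fun y => ∑ a, ((‖g a y‖ ^ 2 * Real.exp (φ a y) : ℝ) : ℂ) := by
    funext y
    push_cast
    rfl
  set b : ℂ := dt (uu g φ z) (UU g φ z ξ) with hb
  have e2 : ∀ j, dz j (fun y => ((∑ a, ‖g a y‖ ^ 2 * Real.exp (φ a y) : ℝ) : ℂ)) z =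
      ∑ a, (Real.exp (φ a z) : ℂ) * conj (g a z) * Dg (g a) (φ a) z j := by
    intro j
    rw [e1, C2.dz_sum j _ fun a _ => hd a]
    exact Finset.sum_congr rfl fun a _ =>
      term_dz (hg a).differentiableAt ((hφ a).differentiableAt (by norm_num)) j
  set p : Cm n := fun j => ∑ a, (Real.exp (φ a z) : ℂ) * conj (g a z) * Dg (g a) (φ a) z j with hp
  have e3 : cHess (fun y => Real.log (∑ a, ‖g a y‖ ^ 2 * Real.exp (φ a y))) z =
      ((N⁻¹ : ℝ) : ℂ) • ∑ a, ((Real.exp (φ a z) : ℂ) • Matrix.vecMulVec (Dg (g a) (φ a) z)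
        (star (Dg (g a) (φ a) z)) + ((‖g a z‖ ^ 2 * Real.exp (φ a z) : ℝ) : ℂ) •
          cHess (φ a) z) - (((N ^ 2)⁻¹ : ℝ) : ℂ) • Matrix.vecMulVec p (star p) := by
    ext j k
    have e4 : ∑ a, cHess (fun y => ‖g a y‖ ^ 2 * Real.exp (φ a y)) z j k =
        ∑ a, ((Real.exp (φ a z) : ℂ) * (Dg (g a) (φ a) z j * conj (Dg (g a) (φ a) z k)) +
          ((‖g a z‖ ^ 2 * Real.exp (φ a z) : ℝ) : ℂ) * cHess (φ a) z j k) :=
      Finset.sum_congr rfl fun a _ => term_hess (hg a) (hφ a) j k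
    rw [C2.cHess_log hu hN, C2.dzb_real k (hu.differentiableAt (by norm_num)), e2, e2,
      H206.Bog.cHess_sum _ fun a _ => hterm a, Matrix.sum_apply, e4, ← hNdef]
    simp only [Matrix.sub_apply, Matrix.smul_apply, Matrix.sum_apply, Matrix.add_apply,
      Matrix.vecMulVec_apply, Pi.star_apply, RCLike.star_def, smul_eq_mul, hp, Complex.ofReal_inv,
      Complex.ofReal_pow]
  have e5 : b = ∑ j, p j * ξ j := by
    rw [hb, dt_uu_UU, hp]
    simp only [Finset.sum_mul, Finset.mul_sum]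
    rw [Finset.sum_comm]
    refine Finset.sum_congr rfl fun j _ => Finset.sum_congr rfl fun a _ => ?_
    ring
  have e6 : quad (cHess (fun y => Real.log (∑ a, ‖g a y‖ ^ 2 * Real.exp (φ a y))) z) ξ =
      ((N⁻¹ : ℝ) : ℂ) * ∑ a, ((Real.exp (φ a z) : ℂ) *
        ((‖∑ j, Dg (g a) (φ a) z j * ξ j‖ ^ 2 : ℝ) : ℂ) +
        ((‖g a z‖ ^ 2 * Real.exp (φ a z) : ℝ) : ℂ) * quad (cHess (φ a) z) ξ) -
      (((N ^ 2)⁻¹ : ℝ) : ℂ) * ((‖b‖ ^ 2 : ℝ) : ℂ) := by
    rw [e3, quad_sub, quad_smulM, quad_smulM, quad_sum, quad_rank, ← e5]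
    congr 2
    refine Finset.sum_congr rfl fun a _ => ?_
    rw [quad_add, quad_smulM, quad_smulM, quad_rank]
  have e7 : (quad (cHess (fun y => Real.log (∑ a, ‖g a y‖ ^ 2 * Real.exp (φ a y))) z) ξ).re =
      N⁻¹ * ∑ a, (Real.exp (φ a z) * ‖∑ j, Dg (g a) (φ a) z j * ξ j‖ ^ 2 +
        (‖g a z‖ ^ 2 * Real.exp (φ a z)) * (quad (cHess (φ a) z) ξ).re) -
      (N ^ 2)⁻¹ * ‖b‖ ^ 2 := by
    rw [e6, Complex.sub_re, Complex.re_ofReal_mul, Complex.re_ofReal_mul, Complex.re_sum,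
      Complex.ofReal_re]
    congr 2
    refine Finset.sum_congr rfl fun a _ => ?_
    rw [Complex.add_re, Complex.re_ofReal_mul, Complex.re_ofReal_mul, Complex.ofReal_re]
  rw [e7, gr, sq_uu, ← hNdef, sq_UU, Finset.sum_add_distrib, mul_add, ← hb]
  have e8 : ∑ a, Real.exp (φ a z) * ‖∑ j, Dg (g a) (φ a) z j * ξ j‖ ^ 2 =
      ∑ a, ‖∑ j, Dg (g a) (φ a) z j * ξ j‖ ^ 2 * Real.exp (φ a z) :=
    Finset.sum_congr rfl fun a _ => mul_comm _ _
  have e9 : N⁻¹ * ∑ a, (‖g a z‖ ^ 2 * Real.exp (φ a z)) * (quad (cHess (φ a) z) ξ).re =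
      ∑ a, ‖g a z‖ ^ 2 * Real.exp (φ a z) / N * (quad (cHess (φ a) z) ξ).re := by
    rw [Finset.mul_sum]
    refine Finset.sum_congr rfl fun a _ => ?_
    rw [div_eq_inv_mul]
    ring
  rw [e8, e9]
  have hN0 : N ≠ 0 := hN.ne'
  field_simp
  ring

end Hess

end Vale.Agent.P284.H366.D
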